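import Mathlib

/-!
# Closed neighbourhoods and cuts (problem P038)
-/

namespace Vale.Agent.P038.H653

open Finset

variable {V : Type*} [DecidableEq V]

/-- The union of the closed out-neighbourhoods of the members of `S`. -/
def dil (N : V → Finset V) (S : Finset V) : Finset V := S.biUnion N

theorem mem_dil {N : V → Finset V} {S : Finset V} {x : V} :
    x ∈ dil N S ↔ ∃ y ∈ S, x ∈ N y := by
  simp [dil]

theorem dil_mono {N : V → Finset V} {S T : Finset V} (h : S ⊆ T) : dil N S ⊆ dil N T := by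
  intro x hx
  rw [mem_dil] at hx ⊢
  obtain ⟨y, hy, hxy⟩ := hx
  exact ⟨y, h hy, hxy⟩

theorem dil_union (N : V → Finset V) (S T : Finset V) :
    dil N (S ∪ T) = dil N S ∪ dil N T := by
  ext x
  simp only [mem_dil, mem_union]
  constructor
  · rintro ⟨y, hy | hy, hxy⟩
    · exact Or.inl ⟨y, hy, hxy⟩
    · exact Or.inr ⟨y, hy, hxy⟩
  · rintro (⟨y, hy, hxy⟩ | ⟨y, hy, hxy⟩)
    · exact ⟨y, Or.inl hy, hxy⟩
    · exact ⟨y, Or.inr hy, hxy⟩

theorem subset_dil {N : V → Finset V} (hN : ∀ v, v ∈ N v) (S : Finset V) : S ⊆ dil N S := by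
  intro x hx
  exact mem_dil.2 ⟨x, hx, hN x⟩

theorem dil_submod (N : V → Finset V) (S T : Finset V) :
    ((dil N (S ∪ T)).card : ℤ) + (dil N (S ∩ T)).card ≤ (dil N S).card + (dil N T).card := by
  have h1 : dil N (S ∩ T) ⊆ dil N S ∩ dil N T :=
    subset_inter (dil_mono inter_subset_left) (dil_mono inter_subset_right)
  have h2 := card_le_card h1
  have h3 := card_union_add_card_inter (dil N S) (dil N T)
  rw [dil_union]
  omega

/-- The cut of `S`. -/
def c (N : V → Finset V) (S : Finset V) : ℤ := (dil N S).card - S.card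

/-- The parametric cut at level `k` (scaled by `M`). -/
def F (N : V → Finset V) (M k : ℕ) (S : Finset V) : ℤ :=
  M * (dil N S).card - (M + k) * S.card

theorem F_submod (N : V → Finset V) (M k : ℕ) (S T : Finset V) :
    F N M k (S ∪ T) + F N M k (S ∩ T) ≤ F N M k S + F N M k T := by
  have h1 := dil_submod N S T
  have h2 : ((S ∪ T).card : ℤ) + (S ∩ T).card = S.card + T.card := by
    exact_mod_cast card_union_add_card_inter S T
  have h3 := mul_le_mul_of_nonneg_left h1 (Int.natCast_nonneg M)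
  unfold F
  have h4 : ((M : ℤ) + k) * (((S ∪ T).card : ℤ) + (S ∩ T).card)
      = (M + k) * (S.card + T.card) := by rw [h2]
  linarith

theorem F_succ (N : V → Finset V) (M k : ℕ) (S : Finset V) :
    F N M (k + 1) S = F N M k S - S.card := by
  unfold F
  push_cast
  ring

/-- The chain of minimisers of the parametric cuts between `P` and `K`. -/
theorem chain [Fintype V] (N : V → Finset V) (M : ℕ) (P K : Finset V) (hPK : P ⊆ K)
    (hst : ∀ S, P ⊆ S → S ⊆ K → c N P ≤ c N S) :
    ∃ s : ℕ → Finset V, s 0 = P ∧ (∀ k, P ⊆ s k ∧ s k ⊆ K) ∧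
      (∀ k S, P ⊆ S → S ⊆ K → F N M k (s k) ≤ F N M k S) ∧
      (∀ k, s k ⊆ s (k + 1)) ∧ (∀ k, M * Fintype.card V < k → s k = K) := by
  have hex : ∀ k, ∃ T, P ⊆ T ∧ T ⊆ K ∧ ∀ S, P ⊆ S → S ⊆ K → F N M k T ≤ F N M k S := by
    intro k
    obtain ⟨T, hT, hmin⟩ := exists_min_image (Icc P K) (F N M k) ⟨P, mem_Icc.2 ⟨le_refl _, hPK⟩⟩
    refine ⟨T, (mem_Icc.1 hT).1, (mem_Icc.1 hT).2, fun S h1 h2 => hmin S (mem_Icc.2 ⟨h1, h2⟩)⟩
  choose t ht1 ht2 ht3 using hex
  let s : ℕ → Finset V := fun k => if k = 0 then P else t k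
  have hs0 : s 0 = P := by simp [s]
  have hin : ∀ k, P ⊆ s k ∧ s k ⊆ K := by
    intro k
    by_cases hk : k = 0
    · simp only [s, hk, if_true]
      exact ⟨Subset.refl _, hPK⟩
    · simp only [s, hk, if_false]
      exact ⟨ht1 k, ht2 k⟩
  have hmin : ∀ k S, P ⊆ S → S ⊆ K → F N M k (s k) ≤ F N M k S := by
    intro k S h1 h2
    by_cases hk : k = 0
    · subst hk
      rw [hs0]
      have h := hst S h1 h2
      have h' := mul_le_mul_of_nonneg_left h (Int.natCast_nonneg M)
      unfold c at h'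
      unfold F
      push_cast
      linarith
    · simp only [s, hk, if_false]
      exact ht3 k S h1 h2
  refine ⟨s, hs0, hin, hmin, ?_, ?_⟩
  · intro k
    -- any minimiser at level `k` lies in any minimiser at level `k + 1`
    have hS := hin k
    have hT := hin (k + 1)
    have h1 := F_submod N M (k + 1) (s k) (s (k + 1))
    have h2 := hmin (k + 1) (s k ∪ s (k + 1)) (hS.1.trans subset_union_left)
      (union_subset hS.2 hT.2)
    have h3 := hmin k (s k ∩ s (k + 1)) (subset_inter hS.1 hT.1)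
      (inter_subset_left.trans hS.2)
    rw [F_succ, F_succ, F_succ] at h1
    rw [F_succ, F_succ] at h2
    have h4 : (s k).card ≤ (s k ∩ s (k + 1)).card := by
      have h5 : ((s k).card : ℤ) ≤ (s k ∩ s (k + 1)).card := by
        rw [F_succ] at h1
        linarith
      exact_mod_cast h5
    have h6 : s k ∩ s (k + 1) = s k := eq_of_subset_of_card_le inter_subset_left h4
    exact inter_eq_left.1 h6
  · intro k hk
    have h1 := hmin k K hPK (Subset.refl _)
    have h2 := (hin k).2
    by_contra hne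
    have hlt : (s k).card < K.card := by
      rcases Nat.lt_or_ge (s k).card K.card with h | h
      · exact h
      · exact absurd (eq_of_subset_of_card_le h2 h) hne
    have h3 : (dil N K).card ≤ Fintype.card V := card_le_univ _
    unfold F at h1
    have h4 : ((s k).card : ℤ) + 1 ≤ K.card := by exact_mod_cast hlt
    have h5 : ((dil N K).card : ℤ) ≤ Fintype.card V := by exact_mod_cast h3
    have h6 : (M : ℤ) * Fintype.card V < k := by exact_mod_cast hk
    have h7 : (0 : ℤ) ≤ (dil N (s k)).card := Int.natCast_nonneg _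
    have hM : (0 : ℤ) ≤ M := Int.natCast_nonneg M
    have hk0 : (0 : ℤ) ≤ k := Int.natCast_nonneg k
    nlinarith [mul_le_mul_of_nonneg_left h5 hM, mul_nonneg hM h7,
      mul_le_mul_of_nonneg_left h4 (add_nonneg hM hk0)]

end Vale.Agent.P038.H653
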