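import Vale.Agent.P038.H653.A

/-!
# The transport inequality between stable pairs (problem P038)
-/

namespace Vale.Agent.P038.H653

open Finset

variable {V : Type*} [DecidableEq V] [Fintype V]

/-- The row `b` of the relation of all `(b, x)` with `(a, x)` in `K` for all closed in-neighbours
`a` of `b`. -/
def core (N : V → Finset V) (K : V → Finset V) (b : V) : Finset V :=
  univ.filter fun x => ∀ a, b ∈ N a → x ∈ K a

theorem mem_core {N : V → Finset V} {K : V → Finset V} {b x : V} :
    x ∈ core N K b ↔ ∀ a, b ∈ N a → x ∈ K a := by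
  simp [core]

theorem core_mono {N : V → Finset V} {P K : V → Finset V} (h : ∀ a, P a ⊆ K a) (b : V) :
    core N P b ⊆ core N K b := by
  intro x hx
  rw [mem_core] at hx ⊢
  exact fun a ha => h a (hx a ha)

/-- Abel summation, upper form. -/
theorem abel_up (M : ℕ) (s d : ℕ → ℤ)
    (h : ∀ k, M * (d (k + 1)) - (M + (k + 1 : ℕ)) * s (k + 1) ≤ M * d k - (M + (k + 1 : ℕ)) * s k)
    (m : ℕ) :
    M * (d m - d 0) - M * (s m - s 0) ≤ ∑ k ∈ range m, (s m - s k) := by
  have key : ∀ m : ℕ, M * (d m - d 0) - M * (s m - s 0) ≤ m * s m - ∑ k ∈ range m, s k := by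
    intro m
    induction m with
    | zero => simp
    | succ m ih =>
      have h1 := h m
      rw [sum_range_succ]
      push_cast at h1 ⊢
      linarith
  have h1 := key m
  rw [sum_sub_distrib, sum_const, card_range, nsmul_eq_mul]
  exact h1

/-- Abel summation, lower form. -/
theorem abel_down (M : ℕ) (s d : ℕ → ℤ)
    (h : ∀ k : ℕ, M * (d k) - (M + k) * s k ≤ M * d (k + 1) - (M + k) * s (k + 1))
    (m : ℕ) :
    ∑ k ∈ range m, (s m - s k) ≤ M * (d m - d 0) - M * (s m - s 0) + (s m - s 0) := by
  have key : ∀ m : ℕ, m * s m - ∑ k ∈ range m, s k ≤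
      M * (d m - d 0) - M * (s m - s 0) + (s m - s 0) := by
    intro m
    induction m with
    | zero => simp
    | succ m ih =>
      have h1 := h m
      rw [sum_range_succ]
      push_cast at h1 ⊢
      linarith
  have h1 := key m
  rw [sum_sub_distrib, sum_const, card_range, nsmul_eq_mul]
  exact h1

/-- **The transport inequality.** If every row `P a` is a minimal cut between `P a` and `K a`, and
the columns satisfy the counting condition `hc`, then passing from `P` to `K` costs at most as much
as passing from `core P` to `core K`. -/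
theorem transport (N : V → Finset V) (P K : V → Finset V) (hPK : ∀ a, P a ⊆ K a)
    (hr : ∀ a S, P a ⊆ S → S ⊆ K a → c N (P a) ≤ c N S)
    (hc : ∀ (x : V) (T : Finset V), (∀ a ∈ T, x ∈ K a ∧ x ∉ P a) →
      T.card ≤ (univ.filter fun b => x ∈ core N K b ∧ ∃ a ∈ T, b ∈ N a).card) :
    ∑ a, c N (K a) - ∑ a, c N (P a) ≤ ∑ b, c N (core N K b) - ∑ b, c N (core N P b) := by
  set n := Fintype.card V with hn
  set M : ℕ := n * n + 1 with hM
  choose s hs0 hin hmin hmono hend using fun a => chain N M (P a) (K a) (hPK a) (hr a)
  set m : ℕ := M * n + 1 with hm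
  have hsm : ∀ a, s a m = K a := fun a => hend a m (by rw [hm]; exact Nat.lt_succ_self _)
  -- the chain of cores
  let z : ℕ → V → Finset V := fun k => core N (fun a => s a k)
  have hz0 : ∀ b, z 0 b = core N P b := by
    intro b
    simp only [z, hs0]
  have hzm : ∀ b, z m b = core N K b := by
    intro b
    simp only [z, hsm]
  have hzmono : ∀ b k, z k b ⊆ z (k + 1) b := by
    intro b k
    exact core_mono (fun a => hmono a k) b
  have hzK : ∀ b k, z k b ⊆ core N K b := fun b k => core_mono (fun a => (hin a k).2) b
  -- the cores are minimal at their level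
  have hzmin : ∀ b k S, z k b ⊆ S → S ⊆ core N K b → F N M k (z k b) ≤ F N M k S := by
    intro b k S h1 h2
    have aux : ∀ I : Finset V, (∀ a ∈ I, b ∈ N a) → ∀ S, S ⊆ core N K b →
        F N M k (S.filter fun x => ∀ a ∈ I, x ∈ s a k) ≤ F N M k S := by
      intro I
      induction I using Finset.induction_on with
      | empty =>
        intro _ S _
        simp
      | insert a I ha ih =>
        intro hI S hS
        have hI' : ∀ a ∈ I, b ∈ N a := fun a' ha' => hI a' (mem_insert_of_mem ha')
        have hba : b ∈ N a := hI a (mem_insert_self _ _)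
        have e : (S.filter fun x => ∀ a' ∈ insert a I, x ∈ s a' k)
            = (S ∩ s a k).filter fun x => ∀ a' ∈ I, x ∈ s a' k := by
          ext x
          simp only [mem_filter, mem_inter, mem_insert, forall_eq_or_imp]
          tauto
        rw [e]
        have h3 := ih hI' (S ∩ s a k) (inter_subset_left.trans hS)
        have h4 := F_submod N M k S (s a k)
        have h5 : F N M k (s a k) ≤ F N M k (S ∪ s a k) := by
          refine hmin a k _ ((hin a k).1.trans subset_union_right) (union_subset ?_ (hin a k).2)
          intro x hx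
          exact mem_core.1 (hS hx) a hba
        linarith
    have h3 := aux (univ.filter fun a => b ∈ N a) (by simp) S h2
    have e : (S.filter fun x => ∀ a ∈ univ.filter (fun a => b ∈ N a), x ∈ s a k) = z k b := by
      ext x
      simp only [z, mem_filter, mem_univ, true_and, mem_core]
      constructor
      · exact fun h => h.2
      · intro h
        exact ⟨h1 (mem_core.2 h), h⟩
    rw [e] at h3
    exact h3
  -- (1) the rows
  have hrow : ∀ a, (M : ℤ) * (c N (K a) - c N (P a)) ≤
      ∑ k ∈ range m, (((K a).card : ℤ) - (s a k).card) := by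
    intro a
    have h := abel_up M (fun k => ((s a k).card : ℤ)) (fun k => ((dil N (s a k)).card : ℤ))
      (by
        intro k
        exact hmin a (k + 1) (s a k) (hin a k).1 (hin a k).2) m
    simp only [hsm, hs0] at h
    unfold c
    linarith
  -- (3) the rows of the cores
  have hcore : ∀ b, ∑ k ∈ range m, (((core N K b).card : ℤ) - (z k b).card) ≤
      (M : ℤ) * (c N (core N K b) - c N (core N P b)) +
        ((core N K b).card - (core N P b).card) := by
    intro b
    have h := abel_down M (fun k => ((z k b).card : ℤ)) (fun k => ((dil N (z k b)).card : ℤ))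
      (by
        intro k
        exact hzmin b k (z (k + 1) b) (hzmono b k) (hzK b (k + 1))) m
    simp only [hzm, hz0] at h
    unfold c
    linarith
  -- (2) the columns
  have hcol : ∀ k, ∑ a, (((K a).card : ℤ) - (s a k).card) ≤
      ∑ b, (((core N K b).card : ℤ) - (z k b).card) := by
    intro k
    have e1 : ∀ a, ((K a).card : ℤ) - (s a k).card = ((K a \ s a k).card : ℤ) := by
      intro a
      rw [card_sdiff_of_subset (hin a k).2, Nat.cast_sub (card_le_card (hin a k).2)]
    have e2 : ∀ b, ((core N K b).card : ℤ) - (z k b).card = ((core N K b \ z k b).card : ℤ) := by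
      intro b
      rw [card_sdiff_of_subset (hzK b k), Nat.cast_sub (card_le_card (hzK b k))]
    simp only [e1, e2]
    rw [← Nat.cast_sum, ← Nat.cast_sum]
    have d1 : ∑ a, (K a \ s a k).card
        = ∑ x, (univ.filter fun a => x ∈ K a \ s a k).card := by
      have h := sum_card_bipartiteAbove_eq_sum_card_bipartiteBelow
        (s := (univ : Finset V)) (t := (univ : Finset V)) (fun a x => x ∈ K a \ s a k)
      simp only [bipartiteAbove, bipartiteBelow] at h
      rw [← h]
      refine sum_congr rfl fun a _ => ?_
      congr 1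
      ext x
      simp
    have d2 : ∑ b, (core N K b \ z k b).card
        = ∑ x, (univ.filter fun b => x ∈ core N K b \ z k b).card := by
      have h := sum_card_bipartiteAbove_eq_sum_card_bipartiteBelow
        (s := (univ : Finset V)) (t := (univ : Finset V)) (fun b x => x ∈ core N K b \ z k b)
      simp only [bipartiteAbove, bipartiteBelow] at h
      rw [← h]
      refine sum_congr rfl fun a _ => ?_
      congr 1
      ext x
      simp
    rw [d1, d2]
    have key : ∀ x : V, (univ.filter fun a => x ∈ K a \ s a k).card ≤
        (univ.filter fun b => x ∈ core N K b \ z k b).card := by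
      intro x
      refine (hc x (univ.filter fun a => x ∈ K a \ s a k) ?_).trans (card_le_card ?_)
      · intro a ha
        rw [mem_filter, mem_sdiff] at ha
        exact ⟨ha.2.1, fun h => ha.2.2 ((hin a k).1 h)⟩
      · intro b hb
        rw [mem_filter] at hb ⊢
        obtain ⟨_, hb1, a, ha, hba⟩ := hb
        refine ⟨mem_univ _, mem_sdiff.2 ⟨hb1, ?_⟩⟩
        intro h
        rw [mem_filter, mem_sdiff] at ha
        exact ha.2.2 (mem_core.1 h a hba)
    exact_mod_cast sum_le_sum fun x _ => key x
  -- combination
  have t1 : (M : ℤ) * (∑ a, c N (K a) - ∑ a, c N (P a)) ≤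
      ∑ a, ∑ k ∈ range m, (((K a).card : ℤ) - (s a k).card) := by
    rw [← sum_sub_distrib, mul_sum]
    exact sum_le_sum fun a _ => hrow a
  have t2 : ∑ a, ∑ k ∈ range m, (((K a).card : ℤ) - (s a k).card) ≤
      ∑ b, ∑ k ∈ range m, (((core N K b).card : ℤ) - (z k b).card) := by
    rw [sum_comm, sum_comm (s := univ) (t := range m)]
    exact sum_le_sum fun k _ => hcol k
  have t3 : ∑ b, ∑ k ∈ range m, (((core N K b).card : ℤ) - (z k b).card) ≤
      (M : ℤ) * (∑ b, c N (core N K b) - ∑ b, c N (core N P b)) +
        ∑ b : V, (((core N K b).card : ℤ) - (core N P b).card) := by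
    rw [← sum_sub_distrib, mul_sum, ← sum_add_distrib]
    exact sum_le_sum fun b _ => hcore b
  have t4 : ∑ b : V, (((core N K b).card : ℤ) - (core N P b).card) ≤ n * n := by
    have h : ∀ b ∈ (univ : Finset V), (((core N K b).card : ℤ) - (core N P b).card) ≤ n := by
      intro b _
      have h1 : (core N K b).card ≤ n := card_le_univ _
      have h2 : ((core N K b).card : ℤ) ≤ n := by exact_mod_cast h1
      have h3 : (0 : ℤ) ≤ (core N P b).card := Int.natCast_nonneg _
      linarith
    have h' := sum_le_card_nsmul _ _ _ h
    rw [card_univ, nsmul_eq_mul] at h'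
    exact h'
  have t5 : (M : ℤ) * (∑ a, c N (K a) - ∑ a, c N (P a)) ≤
      (M : ℤ) * (∑ b, c N (core N K b) - ∑ b, c N (core N P b)) + n * n := by linarith
  by_contra hcon
  push Not at hcon
  have t6 : (∑ b, c N (core N K b) - ∑ b, c N (core N P b)) + 1 ≤
      (∑ a, c N (K a) - ∑ a, c N (P a)) := hcon
  have hM0 : (0 : ℤ) ≤ M := Int.natCast_nonneg M
  have t7 := mul_le_mul_of_nonneg_left t6 hM0
  have hMv : (M : ℤ) = n * n + 1 := by rw [hM]; push_cast; ring
  rw [mul_add] at t7
  linarith

end Vale.Agent.P038.H653
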