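import Vale.Agent.P038.H653.A

/-!
# Sets in an arc-minimal counterexample (problem P038)
-/

namespace Vale.Agent.P038.H653

open Finset

variable {V : Type*} [DecidableEq V] [Fintype V]

/-- `N` is the closed out-neighbourhood function of an oriented graph in which every vertex has
fewer second out-neighbours than out-neighbours. -/
structure Bad (N : V → Finset V) : Prop where
  refl : ∀ v, v ∈ N v
  asymm : ∀ a x, x ∈ N a → a ∈ N x → a = x
  lt : ∀ v, (dil N (N v)).card + 1 < 2 * (N v).card

/-- In an arc-minimal counterexample every set has a smaller second boundary than boundary. -/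
theorem G (N : V → Finset V) (hN : Bad N)
    (hmin : ∀ N' : V → Finset V, Bad N' → ∑ v, (N v).card ≤ ∑ v, (N' v).card)
    (X : Finset V) (hX : dil N X ≠ X) : c N (dil N X) < c N X := by
  classical
  by_contra hcon
  push Not at hcon
  have hXd : X ⊆ dil N X := subset_dil hN.refl X
  set L := dil N X \ X with hL
  have hLne : L.Nonempty := by
    rw [nonempty_iff_ne_empty]
    intro h
    rw [hL, sdiff_eq_empty_iff_subset] at h
    exact hX (Subset.antisymm h hXd)
  let d : Finset V → ℤ := fun T => ((dil N T \ X).card : ℤ) - 2 * T.card
  obtain ⟨T, hT, hTmin⟩ := exists_min_image ((powerset L).erase L) d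
    ⟨∅, by
      rw [mem_erase, mem_powerset]
      exact ⟨fun h => hLne.ne_empty h.symm, empty_subset _⟩⟩
  rw [mem_erase, mem_powerset] at hT
  obtain ⟨hTL, hTsub⟩ := hT
  have hd0 : d T ≤ 0 := by
    have h := hTmin ∅ (by
      rw [mem_erase, mem_powerset]
      exact ⟨fun h => hLne.ne_empty h.symm, empty_subset _⟩)
    have h' : d ∅ = 0 := by simp [d, dil]
    linarith
  have hdL : 0 ≤ d L := by
    have e1 : dil N (dil N X) \ X = dil N L \ X := by
      ext z
      simp only [mem_sdiff]
      constructor
      · rintro ⟨h1, h2⟩
        refine ⟨?_, h2⟩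
        rw [mem_dil] at h1
        obtain ⟨y, hy, hzy⟩ := h1
        by_cases hyX : y ∈ X
        · have hz : z ∈ dil N X := mem_dil.2 ⟨y, hyX, hzy⟩
          exact subset_dil hN.refl L (mem_sdiff.2 ⟨hz, h2⟩)
        · exact mem_dil.2 ⟨y, mem_sdiff.2 ⟨hy, hyX⟩, hzy⟩
      · rintro ⟨h1, h2⟩
        exact ⟨dil_mono sdiff_subset h1, h2⟩
    have e2 : (dil N (dil N X) \ X).card + X.card = (dil N (dil N X)).card := by
      rw [card_sdiff_add_card_eq_card (hXd.trans (subset_dil hN.refl _))]
    have e3 : L.card + X.card = (dil N X).card := by
      rw [hL, card_sdiff_add_card_eq_card hXd]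
    rw [e1] at e2
    unfold c at hcon
    have e2' : ((dil N L \ X).card : ℤ) + X.card = (dil N (dil N X)).card := by exact_mod_cast e2
    have e3' : (L.card : ℤ) + X.card = (dil N X).card := by exact_mod_cast e3
    simp only [d]
    linarith
  have hall : ∀ D : Finset V, D ⊆ L → Disjoint D T →
      2 * D.card ≤ (dil N D \ (dil N T ∪ X)).card := by
    intro D hD hdisj
    have h1 : d T ≤ d (T ∪ D) := by
      by_cases h : T ∪ D = L
      · rw [h]
        exact hd0.trans hdL
      · exact hTmin _ (by
          rw [mem_erase, mem_powerset]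
          exact ⟨h, union_subset hTsub hD⟩)
    have e1 : dil N (T ∪ D) \ X = (dil N T \ X) ∪ (dil N D \ (dil N T ∪ X)) := by
      ext z
      simp only [dil_union, mem_sdiff, mem_union]
      tauto
    have e2 : Disjoint (dil N T \ X) (dil N D \ (dil N T ∪ X)) := by
      rw [disjoint_left]
      intro z hz hz'
      rw [mem_sdiff] at hz hz'
      exact hz'.2 (mem_union_left _ hz.1)
    have e3 : (T ∪ D).card = T.card + D.card := card_union_of_disjoint hdisj.symm
    have e4 := card_union_of_disjoint e2
    simp only [d, e1, e3, e4] at h1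
    push_cast at h1
    have h5 : (2 : ℤ) * D.card ≤ (dil N D \ (dil N T ∪ X)).card := by linarith
    exact_mod_cast h5
  -- the smaller graph
  let N' : V → Finset V := fun v => if v ∈ X then N v ∩ (X ∪ T) else N v
  have hsub : ∀ v, N' v ⊆ N v := by
    intro v
    by_cases hv : v ∈ X
    · simp only [N', hv, if_true]
      exact inter_subset_left
    · simp only [N', hv, if_false]
      exact Subset.refl _
  have hbad : Bad N' := by
    refine ⟨?_, ?_, ?_⟩
    · intro v
      by_cases hv : v ∈ X
      · simp only [N', hv, if_true]
        exact mem_inter.2 ⟨hN.refl v, mem_union_left _ hv⟩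
      · simp only [N', hv, if_false]
        exact hN.refl v
    · intro a x h1 h2
      exact hN.asymm a x (hsub a h1) (hsub x h2)
    · intro v
      by_cases hv : v ∈ X
      · have hNv : N' v = N v ∩ (X ∪ T) := by simp only [N', hv, if_true]
        set D := N v \ (X ∪ T) with hD
        have hDL : D ⊆ L := by
          intro z hz
          rw [hD, mem_sdiff, mem_union] at hz
          rw [hL, mem_sdiff]
          exact ⟨mem_dil.2 ⟨v, hv, hz.1⟩, fun h => hz.2 (Or.inl h)⟩
        have hDT : Disjoint D T := by
          rw [disjoint_left]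
          intro z hz hzT
          rw [hD, mem_sdiff, mem_union] at hz
          exact hz.2 (Or.inr hzT)
        have h1 := hall D hDL hDT
        have h2 : dil N' (N' v) ⊆ dil N (N v) \ (dil N D \ (dil N T ∪ X)) := by
          intro z hz
          rw [mem_dil] at hz
          obtain ⟨y, hy, hzy⟩ := hz
          rw [mem_sdiff]
          refine ⟨mem_dil.2 ⟨y, hsub v hy, hsub y hzy⟩, ?_⟩
          intro hzE
          rw [mem_sdiff] at hzE
          apply hzE.2
          rw [hNv, mem_inter, mem_union] at hy
          by_cases hyX : y ∈ X
          · simp only [N', hyX, if_true] at hzy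
            rw [mem_inter, mem_union] at hzy
            rcases hzy.2 with h | h
            · exact mem_union_right _ h
            · exact mem_union_left _ (subset_dil hN.refl T h)
          · have hyT : y ∈ T := by tauto
            exact mem_union_left _ (mem_dil.2 ⟨y, hyT, hsub y hzy⟩)
        have h3 : dil N D \ (dil N T ∪ X) ⊆ dil N (N v) :=
          sdiff_subset.trans (dil_mono sdiff_subset)
        have h4 := card_le_card h2
        have h5 := card_sdiff_add_card_eq_card h3
        have h6 : (N' v).card + D.card = (N v).card := by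
          rw [hNv, hD]
          exact card_inter_add_card_sdiff _ _
        have h7 := hN.lt v
        omega
      · have hNv : N' v = N v := by simp only [N', hv, if_false]
        rw [hNv]
        have h1 : dil N' (N v) ⊆ dil N (N v) := by
          intro z hz
          rw [mem_dil] at hz ⊢
          obtain ⟨y, hy, hzy⟩ := hz
          exact ⟨y, hy, hsub y hzy⟩
        have h2 := card_le_card h1
        have h3 := hN.lt v
        omega
  have hlt : ∑ v, (N' v).card < ∑ v, (N v).card := by
    have hex : ∃ z ∈ L, z ∉ T := by
      by_contra h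
      push Not at h
      exact hTL (Subset.antisymm hTsub h)
    obtain ⟨z, hzL, hzT⟩ := hex
    rw [hL, mem_sdiff, mem_dil] at hzL
    obtain ⟨⟨y, hy, hzy⟩, hzX⟩ := hzL
    refine sum_lt_sum (fun v _ => card_le_card (hsub v)) ⟨y, mem_univ _, ?_⟩
    refine card_lt_card ⟨hsub y, fun h => ?_⟩
    have h' := h hzy
    simp only [N', hy, if_true] at h'
    rw [mem_inter, mem_union] at h'
    tauto
  exact absurd (hmin N' hbad) (not_le.2 hlt)

end Vale.Agent.P038.H653
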