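import Vale.Agent.P038.H653.B
import Vale.Agent.P038.H653.G

/-!
# No counterexample to the second neighbourhood conjecture (problem P038)
-/

namespace Vale.Agent.P038.H653

open Finset

variable {V : Type*} [DecidableEq V] [Fintype V]

theorem sum_rows (R : V → Finset V) :
    ∑ a, ((R a).card : ℤ) = ∑ a, ∑ x, if x ∈ R a then (1 : ℤ) else 0 := by
  refine sum_congr rfl fun a _ => ?_
  rw [sum_boole]
  congr 2
  ext x
  simp

theorem sum_cols (C : V → Finset V) :
    ∑ x, ((C x).card : ℤ) = ∑ a, ∑ x, if a ∈ C x then (1 : ℤ) else 0 := by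
  rw [sum_rows, sum_comm]

theorem pair_le (R C : V → Finset V) (h : ∀ a x, x ∈ R a → a ∈ C x → a = x) :
    ∑ a, ((R a).card : ℤ) + ∑ x, ((C x).card : ℤ) ≤
      ∑ a : V, ∑ x : V, ((1 : ℤ) + if a = x then 1 else 0) := by
  rw [sum_rows, sum_cols, ← sum_add_distrib]
  refine sum_le_sum fun a _ => ?_
  rw [← sum_add_distrib]
  refine sum_le_sum fun x _ => ?_
  have h' := h a x
  by_cases h1 : x ∈ R a <;> by_cases h2 : a ∈ C x <;> by_cases h3 : a = x <;> simp_all

theorem pair_ge (R C : V → Finset V) (h1 : ∀ a, a ∈ R a) (h2 : ∀ a, a ∈ C a)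
    (h : ∀ a x, x ∉ R a → a ∈ C x) :
    ∑ a : V, ∑ x : V, ((1 : ℤ) + if a = x then 1 else 0) ≤
      ∑ a, ((R a).card : ℤ) + ∑ x, ((C x).card : ℤ) := by
  rw [sum_rows, sum_cols, ← sum_add_distrib]
  refine sum_le_sum fun a _ => ?_
  rw [← sum_add_distrib]
  refine sum_le_sum fun x _ => ?_
  have h' := h a x
  have h1' := h1 a
  have h2' := h2 a
  by_cases h3 : a = x
  · subst h3
    simp [h1', h2']
  · by_cases h4 : x ∈ R a
    · by_cases h5 : a ∈ C x <;> simp [h3, h4, h5]
    · simp [h3, h4, h' h4]

theorem sum_upd (f : Finset V → ℤ) (P : V → Finset V) (a : V) (S : Finset V) :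
    ∑ b, f (Function.update P a S b) = ∑ b, f (P b) - f (P a) + f S := by
  have e : (fun b => f (Function.update P a S b)) = Function.update (fun b => f (P b)) a (f S) := by
    funext b
    by_cases hb : b = a
    · subst hb
      simp
    · simp [Function.update_of_ne hb]
  have h1 : ∑ b, f (Function.update P a S b)
      = ∑ b, Function.update (fun b => f (P b)) a (f S) b := by rw [← e]
  rw [h1, sum_update_of_mem (mem_univ a)]
  have h2 := add_sum_erase univ (fun b => f (P b)) (mem_univ a)
  rw [sdiff_singleton_eq_erase]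
  linarith

/-- The admissible pairs: `P` is the family of rows, `Q` the family of columns. -/
def Adm (N P Q : V → Finset V) : Prop :=
  (∀ a, N a ⊆ P a) ∧ (∀ x, N x ⊆ Q x) ∧ ∀ a x, x ∈ P a → a ∈ Q x → a = x

/-- The cost of a pair. -/
def cost (N P Q : V → Finset V) : ℤ := ∑ a, c N (P a) + ∑ x, c N (Q x)

theorem no_min (N : V → Finset V) (hN : Bad N)
    (hmin : ∀ N' : V → Finset V, Bad N' → ∑ v, (N v).card ≤ ∑ v, (N' v).card)
    [Nonempty V] : False := by
  classical
  have hG := G N hN hmin
  -- an optimal admissible pair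
  obtain ⟨⟨P, Q⟩, hPQ, hopt⟩ := exists_min_image
    (univ.filter fun p : (V → Finset V) × (V → Finset V) => Adm N p.1 p.2)
    (fun p => cost N p.1 p.2)
    ⟨(N, N), by
      rw [mem_filter]
      exact ⟨mem_univ _, fun a => Subset.refl _, fun a => Subset.refl _, hN.asymm⟩⟩
  rw [mem_filter] at hPQ
  obtain ⟨_, hP, hQ, hd⟩ := hPQ
  simp only at hP hQ hd
  have hopt' : ∀ P' Q' : V → Finset V, Adm N P' Q' → cost N P Q ≤ cost N P' Q' := by
    intro P' Q' h
    exact hopt (P', Q') (by
      rw [mem_filter]
      exact ⟨mem_univ _, h⟩)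
  let K : V → Finset V := fun a => univ.filter fun x => x = a ∨ a ∉ Q x
  have hK : ∀ a x, x ∈ K a ↔ x = a ∨ a ∉ Q x := by
    intro a x
    simp [K]
  have hPK : ∀ a, P a ⊆ K a := by
    intro a x hx
    rw [hK]
    by_cases h : a ∈ Q x
    · exact Or.inl (hd a x hx h).symm
    · exact Or.inr h
  have hPself : ∀ a, a ∈ P a := fun a => hP a (hN.refl a)
  have hQself : ∀ a, a ∈ Q a := fun a => hQ a (hN.refl a)
  -- the rows are stable
  have hr : ∀ a S, P a ⊆ S → S ⊆ K a → c N (P a) ≤ c N S := by
    intro a S h1 h2
    have h := hopt' (Function.update P a S) Q ⟨?_, hQ, ?_⟩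
    · unfold cost at h
      rw [sum_upd] at h
      linarith
    · intro b
      by_cases hb : b = a
      · subst hb
        rw [Function.update_self]
        exact (hP b).trans h1
      · rw [Function.update_of_ne hb]
        exact hP b
    · intro b x hx hbx
      by_cases hb : b = a
      · subst hb
        rw [Function.update_self] at hx
        rcases (hK b x).1 (h2 hx) with h3 | h3
        · exact h3.symm
        · exact absurd hbx h3
      · rw [Function.update_of_ne hb] at hx
        exact hd b x hx hbx
  -- the columns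
  have hc : ∀ (x : V) (T : Finset V), (∀ a ∈ T, x ∈ K a ∧ x ∉ P a) →
      T.card ≤ (univ.filter fun b => x ∈ core N K b ∧ ∃ a ∈ T, b ∈ N a).card := by
    intro x T hT
    have h := hopt' P (Function.update Q x (Q x ∪ T)) ⟨hP, ?_, ?_⟩
    · unfold cost at h
      rw [sum_upd] at h
      have hdisj : Disjoint (Q x) T := by
        rw [disjoint_left]
        intro a ha haT
        obtain ⟨h1, h2⟩ := hT a haT
        rcases (hK a x).1 h1 with h3 | h3
        · subst h3
          exact h2 (hPself x)
        · exact h3 ha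
      have e1 : (Q x ∪ T).card = (Q x).card + T.card := card_union_of_disjoint hdisj
      have e2 : dil N (Q x) ⊆ dil N (Q x ∪ T) := dil_mono subset_union_left
      have e3 := card_sdiff_add_card_eq_card e2
      have e4 : dil N (Q x ∪ T) \ dil N (Q x) ⊆
          univ.filter fun b => x ∈ core N K b ∧ ∃ a ∈ T, b ∈ N a := by
        intro b hb
        rw [mem_sdiff] at hb
        rw [mem_filter]
        refine ⟨mem_univ _, ?_, ?_⟩
        · rw [mem_core]
          intro a ha
          rw [hK]
          right
          intro haQ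
          exact hb.2 (mem_dil.2 ⟨a, haQ, ha⟩)
        · obtain ⟨a, ha, hba⟩ := mem_dil.1 hb.1
          rw [mem_union] at ha
          rcases ha with ha | ha
          · exact absurd (mem_dil.2 ⟨a, ha, hba⟩) hb.2
          · exact ⟨a, ha, hba⟩
      have e5 := card_le_card e4
      unfold c at h
      have e1' : ((Q x ∪ T).card : ℤ) = (Q x).card + T.card := by exact_mod_cast e1
      have e3' : ((dil N (Q x ∪ T) \ dil N (Q x)).card : ℤ) + (dil N (Q x)).card
          = (dil N (Q x ∪ T)).card := by exact_mod_cast e3
      have e6 : (T.card : ℤ) ≤ (dil N (Q x ∪ T) \ dil N (Q x)).card := by linarith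
      have e7 : T.card ≤ (dil N (Q x ∪ T) \ dil N (Q x)).card := by exact_mod_cast e6
      exact e7.trans e5
    · intro y
      by_cases hy : y = x
      · subst hy
        rw [Function.update_self]
        exact (hQ y).trans subset_union_left
      · rw [Function.update_of_ne hy]
        exact hQ y
    · intro a y hy hay
      by_cases hyx : y = x
      · subst hyx
        rw [Function.update_self, mem_union] at hay
        rcases hay with h3 | h3
        · exact hd a y hy h3
        · exact absurd hy (hT a h3).2
      · rw [Function.update_of_ne hyx] at hay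
        exact hd a y hy hay
  have htr := transport N P K hPK hr hc
  -- the new pair
  let Y : V → Finset V := fun x => univ.filter fun a => a = x ∨ x ∉ dil N (K a)
  have hY : ∀ a x, a ∈ Y x ↔ a = x ∨ x ∉ dil N (K a) := by
    intro a x
    simp [Y]
  have hYself : ∀ x, x ∈ Y x := fun x => (hY x x).2 (Or.inl rfl)
  have hclaim : ∀ b x, x ∈ dil N (core N K b) → b ∈ dil N (Y x) → b = x := by
    intro b x h1 h2
    by_contra hne
    obtain ⟨y, hy, hxy⟩ := mem_dil.1 h1
    obtain ⟨a, ha, hba⟩ := mem_dil.1 h2
    have hyK := mem_core.1 hy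
    rcases (hY a x).1 ha with h3 | h3
    · -- `a = x`, `b ∈ N x`
      subst h3
      -- now `a` is the column index
      have h4 := (hK a y).1 (hyK a hba)
      rcases h4 with h4 | h4
      · subst h4
        rcases (hK b y).1 (hyK b (hN.refl b)) with h5 | h5
        · exact hne h5.symm
        · exact h5 (hQ y hba)
      · exact h4 (hQ y hxy)
    · exact h3 (mem_dil.2 ⟨y, hyK a hba, hxy⟩)
  have hcoreself : ∀ b, b ∈ core N P b := by
    intro b
    rw [mem_core]
    exact fun a ha => hP a ha
  have hcoreK : ∀ b, core N P b ⊆ core N K b := core_mono hPK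
  have i1 := pair_le (fun b => dil N (core N K b)) (fun x => dil N (Y x)) hclaim
  have i2 := pair_le K Q (by
    intro a x h1 h2
    rcases (hK a x).1 h1 with h3 | h3
    · exact h3.symm
    · exact absurd h2 h3)
  have i3 := pair_ge (fun a => dil N (K a)) Y
    (fun a => subset_dil hN.refl _ (hPK a (hPself a))) hYself
    (by
      intro a x h
      exact (hY a x).2 (Or.inr h))
  have i4 := pair_ge (core N K) (fun x => dil N (Q x)) (fun b => hcoreK b (hcoreself b))
    (fun x => subset_dil hN.refl _ (hQself x))
    (by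
      intro b x h
      rw [mem_core] at h
      push Not at h
      obtain ⟨a, ha, hxa⟩ := h
      rw [hK] at hxa
      push Not at hxa
      exact mem_dil.2 ⟨a, hxa.2, ha⟩)
  have hsum : ∑ b, c N (core N P b) + ∑ x, c N (Y x) ≤ cost N P Q := by
    have e : ∀ R : V → Finset V, ∑ a, c N (R a) = ∑ a, ((dil N (R a)).card : ℤ)
        - ∑ a, ((R a).card : ℤ) := by
      intro R
      unfold c
      rw [sum_sub_distrib]
    unfold cost
    have e1 := e (core N K)
    have e2 := e Y
    have e3 := e K
    have e4 := e Q
    linarith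
  -- one step further
  have hadm : Adm N (fun a => dil N (core N P a)) (fun x => dil N (Y x)) := by
    refine ⟨?_, ?_, ?_⟩
    · intro a z hz
      exact mem_dil.2 ⟨a, hcoreself a, hz⟩
    · intro x z hz
      exact mem_dil.2 ⟨x, hYself x, hz⟩
    · intro a x h1 h2
      exact hclaim a x (dil_mono (hcoreK a) h1) h2
  have hfin := hopt' _ _ hadm
  have hle : ∀ S : Finset V, c N (dil N S) ≤ c N S := by
    intro S
    by_cases h : dil N S = S
    · rw [h]
    · exact (hG S h).le
  -- some set of the new pair is not closed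
  have hex : (∃ a, dil N (core N P a) ≠ core N P a) ∨ ∃ x, dil N (Y x) ≠ Y x := by
    by_contra hcon
    push Not at hcon
    obtain ⟨hc1, hc2⟩ := hcon
    obtain ⟨S, hS, hSmin⟩ := exists_min_image
      (univ.filter fun S : Finset V => S.Nonempty ∧ dil N S = S) card
      ⟨univ, by
        rw [mem_filter]
        exact ⟨mem_univ _, univ_nonempty, Subset.antisymm (subset_univ _)
          (subset_dil hN.refl _)⟩⟩
    rw [mem_filter] at hS
    obtain ⟨_, ⟨a, ha⟩, hSc⟩ := hS
    have h1 : 1 < (N a).card := by
      have h2 := hN.lt a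
      have h3 := card_le_card (subset_dil hN.refl (N a))
      omega
    obtain ⟨x, hx, hxa⟩ := exists_mem_ne h1 a
    have hxS : x ∈ S := by
      rw [← hSc]
      exact mem_dil.2 ⟨a, ha, hx⟩
    have hxP : x ∈ dil N (core N P a) := mem_dil.2 ⟨a, hcoreself a, hx⟩
    have hYS : Y x ∩ S = S := by
      refine eq_of_subset_of_card_le inter_subset_right (hSmin _ ?_)
      rw [mem_filter]
      refine ⟨mem_univ _, ⟨x, mem_inter.2 ⟨hYself x, hxS⟩⟩, ?_⟩
      refine Subset.antisymm ?_ (subset_dil hN.refl _)
      intro z hz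
      rw [mem_inter]
      constructor
      · rw [← hc2 x]
        exact dil_mono inter_subset_left hz
      · rw [← hSc]
        exact dil_mono inter_subset_right hz
    have haY : a ∈ Y x := by
      have h4 : a ∈ Y x ∩ S := by
        rw [hYS]
        exact ha
      exact (mem_inter.1 h4).1
    exact hxa (hclaim a x (dil_mono (hcoreK a) hxP) (subset_dil hN.refl _ haY)).symm
  have hlt : cost N (fun a => dil N (core N P a)) (fun x => dil N (Y x)) <
      ∑ b, c N (core N P b) + ∑ x, c N (Y x) := by
    unfold cost
    rcases hex with ⟨a, ha⟩ | ⟨x, hx⟩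
    · exact add_lt_add_of_lt_of_le
        (sum_lt_sum (fun b _ => hle _) ⟨a, mem_univ _, hG _ ha⟩)
        (sum_le_sum fun x _ => hle _)
    · exact add_lt_add_of_le_of_lt
        (sum_le_sum fun x _ => hle _)
        (sum_lt_sum (fun b _ => hle _) ⟨x, mem_univ _, hG _ hx⟩)
  linarith

/-- There is no nonempty finite oriented graph in which every vertex has fewer second
out-neighbours than out-neighbours. -/
theorem no_bad [Nonempty V] (N : V → Finset V) (hN : Bad N) : False := by
  classical
  obtain ⟨N₀, h0, hmin⟩ := exists_min_image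
    (univ.filter fun N' : V → Finset V => Bad N') (fun N' => ∑ v, (N' v).card)
    ⟨N, by
      rw [mem_filter]
      exact ⟨mem_univ _, hN⟩⟩
  rw [mem_filter] at h0
  refine no_min N₀ h0.2 fun N' hN' => hmin N' ?_
  rw [mem_filter]
  exact ⟨mem_univ _, hN'⟩

end Vale.Agent.P038.H653
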